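import Vale.Agent.P355.H138.TB.ABC.Ky
import Vale.Agent.P355.H947.UC.CCA.Ky
import Vale.Agent.P355.H693D.Gb0
import Vale.Agent.P355.H693D.Gb1
import Vale.Agent.P355.H693D.Gb2
import Vale.Agent.P355.H693D.Gb3
import Vale.Agent.P355.H693D.Gb4
import Vale.Agent.P355.H693D.Gb5
import Vale.Agent.P355.H693D.Gb6
import Vale.Agent.P355.H693D.Gb7
import Vale.Agent.P355.H693D.Gb8
import Vale.Agent.P355.H693D.Gb9
import Vale.Agent.P355.H693D.Gb10
import Vale.Agent.P355.H693D.Gb11
import Vale.Agent.P355.H693D.Gb12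
import Vale.Agent.P355.H693D.Gb13
import Vale.Agent.P355.H693D.Gb14
import Vale.Agent.P355.H693D.Gb15
import Vale.Agent.P355.H693D.Gb16
import Vale.Agent.P355.H693D.Gb17
import Vale.Agent.P355.H693D.Gb18
import Vale.Agent.P355.H693D.Gb19
import Vale.Agent.P355.H693D.Gb20
import Vale.Agent.P355.H693D.Gb21
import Vale.Agent.P355.H693D.Gb22
import Vale.Agent.P355.H693D.Gb23
import Vale.Agent.P355.H693D.Gb24
import Vale.Agent.P355.H693D.Gb25
import Vale.Agent.P355.H693D.Gb26
import Vale.Agent.P355.H693D.Gb27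
import Vale.Agent.P355.H693D.Gb28
import Vale.Agent.P355.H693D.Gb29
import Vale.Agent.P355.H693D.Gb30
import Vale.Agent.P355.H693D.Gb31
import Vale.Agent.P355.H693D.Gb32
import Vale.Agent.P355.H693D.Gb33
import Vale.Agent.P355.H693D.Gb34
import Vale.Agent.P355.H693D.Gb35
import Vale.Agent.P355.H693D.Gb36
import Vale.Agent.P355.H693D.Gb37
import Vale.Agent.P355.H693D.VL
import Vale.Agent.P355.H693.GRes
import Vale.Agent.P355.H693W.Fin4

namespace Vale.Agent.P355.H693D

open Vale.Agent.P355 H147 H693 H693W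

def rs0 : List (ℤ × ℕ) := [(10867, 1), (12432, 2), (3388, 3), (-15370, 4), (-5956, 5), (-10500, 6), (-9386, 7), (-82, 8), (4190, 9), (-9158, 10), (5184, 11), (-13036, 12), (5288, 13), (-2528, 14), (13290, 15), (5942, 16), (14710, 17), (-876, 18), (-13360, 19), (-5178, 20), (7954, 21), (5436, 22), (-8104, 23), (6652, 24), (3936, 25), (1100, 26), (-2952, 27), (1078, 28), (5154, 29), (6842, 30), (440, 31), (-6896, 32), (-3624, 33), (-5690, 34), (-1952, 35), (-274, 36), (490, 37), (-14278, 38), (7442, 39), (-13660, 40), (13688, 41), (3214, 42), (-5070, 43), (3712, 44), (96, 45), (15622, 46), (510, 47), (15652, 48), (-13024, 49), (-5816, 50), (-8980, 51), (9906, 52), (-11140, 53), (6, 54), (-6, 55), (16106, 56), (-8610, 57), (-11402, 58), (-12508, 59), (-714, 60), (10240, 61), (-12916, 62), (-8984, 63), (16320, 64), (15816, 65), (-11712, 66), (-15522, 67), (-12214, 68), (3700, 69), (-5284, 70), (-2710, 71), (12974, 72), (-610, 73), (-12532, 74), (14710,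 75), (-4024, 76), (14128, 77), (-9994, 78), (1642, 79), (4230, 80), (9678, 81), (-9642, 82), (15550, 83), (1900, 84), (-7074, 85), (-3012, 86), (1780, 87), (-10628, 88), (-16128, 89), (-3604, 90), (-4370, 91), (-12664, 92), (14376, 93), (-3280, 94), (-10586, 95), (15720, 96), (13428, 97), (-752, 98), (10286, 99), (3924, 100), (-15686, 101), (-4000, 102), (1414, 103), (13532, 104), (626, 105), (7434, 106), (15980, 107), (1732, 108), (7468, 109), (4798, 110), (-10024, 111), (964, 112), (13996, 113), (-13836, 114), (13676, 115), (-12496, 116), (-12568, 117), (-4674, 118), (-6, 119), (6, 120), (176, 121), (-13454, 122), (10092, 123), (-13148, 124), (-11512, 125), (10862, 126), (-44, 127), (-24, 128), (-86, 129), (166, 130), (226, 131), (146, 132), (-142, 133), (-168, 134), (104, 135), (26, 136), (330, 137), (66, 138), (174, 139), (62, 140), (-6, 141), (-6, 142), (8, 143), (-10, 144), (-6, 145), (10, 146), (104, 147), (-22, 148), (-8, 149), (-8, 150), (-154,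 151), (-34, 152), (-454, 153), (230, 154), (-68, 155), (-18, 156), (230, 157), (158, 158), (-48, 159), (-18, 160), (-178, 161), (4, 162), (-40, 163), (54, 164), (-22, 165), (94, 166), (-64, 167), (-4, 168), (-10, 169), (-4, 170), (-2, 171), (-20, 172), (96, 173), (-46, 174), (458, 175), (-268, 176), (-6, 177), (-6, 178), (4, 179), (-8, 180), (2, 181), (6, 182), (-18, 183), (-4, 184), (-4, 185), (-10, 186), (-6, 187), (8, 188), (6, 189), (18, 190), (-4, 191), (-2, 192), (2, 193), (-4, 194), (-4, 195), (8, 196), (6, 197), (-6, 198), (-10, 199), (-16, 200)]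
def rs1 : List (ℤ × ℕ) := [(-108, 201), (-16, 202), (422, 203), (200, 204), (-58, 205), (-146, 206), (12, 207), (-2, 208), (-2, 209), (12, 210), (2, 211), (30, 212), (-10, 213), (56, 214), (-10, 215), (4, 216), (8, 217), (14, 218), (2, 219), (6, 220), (-96, 221), (-60, 222), (-16, 223), (-8, 224), (-2, 225), (-2, 226), (2, 227), (4, 228), (6, 229), (-2, 230), (-2, 231), (-18, 232), (28, 233), (10, 234), (26, 235), (36, 236), (8, 237), (-12, 238), (-22, 239), (-28, 240), (10, 241), (14, 242), (-4, 243), (12, 244), (-6, 245), (28, 246), (-4, 247), (18, 248), (-12, 249), (10, 250), (14, 251), (116, 252), (-120, 253), (2, 254), (6, 255), (20, 256), (-26, 257), (12, 258), (-130, 259), (8, 260), (-6, 261), (12, 262), (8, 263), (2, 264), (-16, 265), (-14, 266), (-4, 267), (68, 268), (-2, 269), (120, 270), (2, 271), (4, 272), (2, 273), (2, 274), (-2, 275), (-36, 276), (2, 277), (16, 278), (10, 279), (56, 280), (72, 281), (-4, 282), (-10, 283), (14, 284), (-4,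 285), (32, 286), (2, 287), (50, 288), (38, 289), (12, 290), (-34, 291), (6, 292), (-4, 293), (530, 294), (2, 295), (186, 296), (2, 297), (-4, 298), (20, 299), (-10, 300), (-12, 301), (186, 302), (-26, 303), (38, 304), (88, 305), (-8, 306), (44, 307), (-64, 308), (-4, 309), (26, 310), (-804, 311), (8, 312), (110, 313), (-4, 314), (-4, 315), (2, 316), (2, 317), (-2, 318), (-4, 319), (2, 320), (2, 321), (-6, 322), (-22, 323), (2, 324), (-46, 325), (10, 326), (36, 327), (-1760, 328), (2, 329), (2, 330), (2, 331), (-52, 332), (104, 333), (252, 334), (824, 335), (8, 336), (-4, 337), (8, 338), (-10, 339), (-6, 340), (2, 341), (6, 342), (-4, 343), (-4, 344), (2, 345), (2, 346), (-4, 347), (10, 348), (-6, 349), (-22, 350), (2, 351), (-14, 352), (-4, 353), (-6, 354), (6, 355), (22, 356), (8, 357), (-60, 358), (18, 359), (36, 360), (-190, 361), (-268, 362), (78, 363), (36, 364), (-36, 365), (-2, 366), (2, 367), (-12, 368), (20, 369), (-10, 370), (2, 371), (-6,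 372), (-30, 373), (8, 374), (58, 375), (64, 376), (-100, 377), (-36, 378), (2, 379), (6, 380), (24, 381), (6, 382), (-36, 383), (36, 384), (6, 385), (2, 386), (-72, 387), (140, 388), (18, 389), (84, 390), (38, 391), (14, 392), (-10, 393), (26, 394), (-16, 395), (10, 396), (90, 397), (-188, 398), (-12, 399), (8, 400)]
def rs2 : List (ℤ × ℕ) := [(-4, 401), (6, 402), (-56, 403), (36, 404), (-12, 405), (-2, 406), (-4, 407), (-60, 408), (-6, 409), (4, 410), (-4, 411), (4, 412), (2, 413), (-4, 414), (-72, 415), (80, 416), (-6, 417), (-4, 418), (-8, 419), (26, 420), (-10, 421), (26, 422), (2, 423), (2, 424), (14, 425), (-10, 426), (44, 427), (-10, 428), (-2, 429), (-4, 430), (8, 431), (24, 432), (54, 433), (8, 434), (-102, 435), (14, 436), (10, 437), (6, 438), (-4, 439), (6, 440), (-4, 441), (100, 442), (-10, 443), (36, 444), (-14, 445), (18, 446), (-34, 447), (-4, 448), (-10, 449), (22, 450), (8, 451), (92, 452), (128, 453), (-104, 454), (110, 455), (-22,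 456), (-20, 457), (-110, 458), (-12, 459), (34, 460), (242, 461), (8, 462), (6, 463), (-24, 464), (504, 465), (4, 466), (14, 467), (8, 468), (-2, 469), (2, 470), (-6, 471), (-2, 472), (2, 473), (10, 474), (-8, 475), (-8, 476), (24, 477), (-8, 478), (-30, 479), (-16, 480), (402, 481), (236, 482), (6, 483), (2, 484), (6, 485), (-10, 486), (14, 487), (-4, 488), (-30, 489), (-16, 490), (60, 491), (-2, 492), (-22, 493), (-10, 494), (2, 495), (6, 496), (12, 497), (2, 498), (-4, 499), (4, 500), (2, 501), (12, 502), (-10, 503), (16, 504), (-16, 505), (18, 506), (26, 507), (2, 508), (10, 509), (-10, 510), (-8, 511), (-64, 512), (-28, 513), (4, 514), (-10, 515), (-50, 516), (-208, 517), (-22, 518), (-106, 519), (-16, 520), (18, 521), (-16, 522), (20, 523), (32, 524), (-8, 525), (-10, 526), (20, 527), (-4, 528), (20, 529), (-2, 530), (-6, 531), (-6, 532), (2, 533), (-6, 534), (8, 535), (2, 536), (12, 537), (-6, 538), (10, 539), (20, 540), (554, 541), (-1084, 542),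 (-4, 543), (6, 544), (2, 545), (2, 546), (2, 547), (6, 548), (2, 549), (-4, 550), (2, 551), (-4, 552), (-4, 553), (-4, 554), (-6, 555), (-4, 556), (-4, 557), (-4, 558), (2, 559), (2, 560), (2, 561), (12, 562), (-2, 563), (-20, 564), (-22, 565), (-4, 566), (-10, 567), (30, 568), (50, 569), (50, 570), (26, 571), (-10, 572), (38, 573), (6, 574), (2, 575), (14, 576), (2, 577), (-6, 578), (-2, 579), (2, 580), (42, 581), (-12, 582), (-4, 583), (6, 584), (44, 585), (8, 586), (92, 587), (-28, 588), (-4, 589), (2, 590), (6, 591), (-4, 592), (2, 593), (126, 594), (-6, 595), (2, 596), (2, 597), (2, 598), (-4, 599), (-4, 600)]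
def rs3 : List (ℤ × ℕ) := [(14, 601), (2, 602), (-44, 603), (-20, 604), (14, 605), (30, 606), (8, 607), (14, 608), (-18, 609), (-4, 610), (-12, 611), (12, 612), (6, 613), (8, 614), (8, 615), (2, 616), (-2, 617), (20, 618), (-2, 619), (4, 620), (-2, 621), (2, 622), (8, 623), (-12, 624), (-8, 625), (-10, 626), (-8, 627), (20, 628), (20, 629), (-4, 630), (12, 631), (14, 632), (-2, 633), (4, 634), (8, 635), (2, 636), (-20, 637), (2, 638), (-10, 639), (4, 640), (-4, 641), (-4, 642), (2, 643), (2, 644), (-4, 645), (2, 646), (4, 647), (2, 648), (-4, 649), (-2, 650), (2, 651), (2, 652), (-2, 653), (-2, 654), (2, 655), (2, 656), (-2, 657), (-2, 658), (2, 659), (2, 660), (-4, 661), (-4, 662), (-2, 663), (2, 664), (2, 665), (-2, 666), (-2, 667), (-2, 668), (-2, 669), (-2, 670), (-2, 671), (2, 672), (2, 673), (2, 674), (2, 675), (6, 676), (-4, 677), (-2, 678), (2, 679), (-2, 680), (-2, 681), (2, 682), (-2, 683), (-36, 684), (18, 685), (-24, 686), (84, 687), (170,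 688), (6, 689), (-36, 690), (-298, 691), (6, 692), (-6, 693), (164, 694), (6, 695), (-6, 696), (-376, 697), (-4, 698), (-12, 699), (-120, 700), (-2, 701), (-4, 702), (2, 703), (14, 704), (14, 705), (8, 706), (-4, 707), (66, 708), (2, 709), (54, 710), (460, 711), (-54, 712), (-2, 713), (-8, 714), (2, 715), (6, 716), (4, 717), (2, 718), (-4, 719), (8, 720), (-4, 721), (6, 722), (6, 723), (-4, 724), (-4, 725), (2, 726), (2, 727), (338, 728), (-6, 729), (18, 730), (-12, 731), (-482, 732), (-4, 733), (-94, 734), (2, 735), (-16, 736), (-6, 737), (-94, 738), (-6, 739), (-10, 740), (26, 741), (-10, 742), (-28, 743), (-1834, 744), (18, 745), (26, 746), (-2, 747), (-4, 748), (-4, 749), (2, 750), (-4, 751), (10, 752), (8, 753), (6, 754), (12, 755), (26, 756), (4, 757), (-12, 758), (-28, 759), (-22, 760), (-10, 761), (-2, 762), (-4, 763), (-2, 764), (12, 765), (4, 766), (8, 767), (26, 768), (-10, 769), (160, 770), (-28, 771), (246, 772), (-256, 773), (56, 774),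 (176, 775), (-162, 776), (116, 777), (2, 778), (146, 779), (38, 780), (40, 781), (-40, 782), (-2, 783), (-2, 784), (-2, 785), (8, 786), (-28, 787), (2, 788), (6, 789), (-100, 790), (-410, 791), (-20, 792), (-132, 793), (8, 794), (-82, 795), (116, 796), (-2, 797), (-2, 798), (2, 799), (2, 800)]
def rs4 : List (ℤ × ℕ) := [(-304, 801), (-46, 802), (-10, 803), (-90, 804), (44, 805), (32, 806), (-36, 807), (-10, 808), (-2, 809), (-2, 810), (-4, 811), (-6, 812), (-4, 813), (2, 814), (-10, 815), (-144, 816), (-4, 817), (-2, 818), (-68, 819), (12, 820), (340, 821), (18, 822), (188, 823), (68, 824), (78, 825), (-118, 826), (-6, 827), (60, 828), (-52, 829), (-12, 830), (-16, 831), (-4, 832), (-104, 833), (212, 834), (-118, 835), (6, 836), (-4, 837), (-78, 838), (-4, 839), (8, 840), (-14, 841), (12, 842), (2, 843), (-4, 844), (-6, 845), (92, 846), (-18, 847), (24, 848), (20, 849), (-2, 850), (-76, 851), (240, 852), (-38, 853), (-6, 854), (6, 855), (6, 856), (2,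 857), (-4, 858), (-78, 859), (2, 860), (6, 861), (-6, 862), (-10, 863), (2, 864), (2, 865), (2, 866), (-4, 867), (-4, 868), (-6, 869), (-6, 870), (-4, 871), (-2, 872), (4, 873), (8, 874), (2, 875), (-4, 876), (2, 877), (-4, 878), (-2, 879), (4, 880), (2, 881), (-4, 882), (8, 883), (-2, 884), (-40, 885), (32, 886), (-446, 887), (64, 888), (20, 889), (28, 890), (14, 891), (-4, 892), (28, 893), (6, 894), (-4, 895), (-4, 896), (-10, 897), (76, 898), (146, 899), (-42, 900), (-142, 901), (310, 902), (-28, 903), (-10, 904), (-4, 905), (6, 906), (-4, 907), (-12, 908), (-6, 909), (2, 910), (-10, 911), (2, 912), (-4, 913), (6, 914), (-6, 915), (2, 916), (2, 917), (-4, 918), (2, 919), (4, 920), (-4, 921), (2, 922), (-4, 923), (-1248, 924), (-2, 925), (2, 926), (-2, 927), (2, 928), (2, 929), (22, 930), (-4, 931), (-2, 932), (-8, 933), (2, 934), (-4, 935), (2, 936), (-20, 937), (-4, 938), (14, 939), (2, 940), (-4, 941), (-10, 942), (-4, 943), (6, 944), (2, 945),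 (-2, 946), (6, 947), (2, 948), (8, 949), (-8, 950), (14, 951), (14, 952), (-2, 953), (10, 954), (-10, 955), (-16, 956), (-14, 957), (-4, 958), (2, 959), (-12, 960), (-12, 961), (-10, 962), (-10, 963), (-6, 964), (8, 965), (20, 966), (-4, 967), (-16, 968), (-28, 969), (2, 970), (8, 971), (2, 972), (-2, 973), (-4, 974), (-6, 975), (2, 976), (-4, 977), (6, 978), (2, 979), (-4, 980), (6, 981), (-4, 982), (-2, 983), (-4, 984), (-2, 985), (-4, 986), (8, 987), (10, 988), (-2, 989), (-8, 990), (2, 991), (-2, 992), (-2, 993), (2, 994), (14, 995), (48, 996), (24, 997), (-6, 998), (6, 999), (-2, 1000)]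
def rs5 : List (ℤ × ℕ) := [(-10, 1001), (2, 1002), (-14, 1003), (2, 1004), (-6, 1005), (-4, 1006), (12, 1007), (-12, 1008), (4, 1009), (2, 1010), (-4, 1011), (2, 1012), (-4, 1013), (-78, 1014), (-22, 1015), (14, 1016), (-16, 1017), (20, 1018), (242, 1019), (26, 1020), (54, 1021), (2, 1022), (6, 1023), (2, 1024), (-4, 1025), (2, 1026), (2, 1027), (14, 1028), (-6, 1029), (242, 1030), (-124, 1031), (-16, 1032), (-2, 1033), (6, 1034), (-2, 1035), (70, 1036), (200, 1037), (-108, 1038), (-4, 1039), (-4, 1040), (-4, 1041), (2, 1042), (-4, 1043), (-4, 1044), (-4, 1045), (2, 1046), (-4, 1047), (2, 1048), (4, 1049), (2, 1050), (-2, 1051), (-2, 1052), (-16, 1053), (2, 1054), (2, 1055), (2, 1056), (-4, 1057), (-4, 1058), (2, 1059), (-4, 1060), (-4, 1061), (-2, 1062), (2, 1063), (26, 1064), (-10, 1065), (12, 1066), (-24, 1067), (14, 1068), (14, 1069), (-2, 1070), (-48, 1071), (-36, 1072), (-430, 1073), (8, 1074), (2, 1090), (-2, 1148), (2, 1150), (2, 1162), (2, 1163),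 (-2, 1174), (2, 1175), (-2, 1177), (2, 1186), (2, 1187), (-2, 1188), (2, 1200), (2, 1209), (-2, 1210), (-2, 1211), (-2, 1212), (2, 1221), (2, 1222), (2, 1233), (-2, 1234), (-2, 1235), (-2, 1236), (-2, 1243), (-2, 1244), (2, 1245), (-2, 1255), (-2, 1282), (-2, 1283), (2, 1284), (-2, 1285), (2, 1294), (2, 1303), (-2, 1313), (-2, 1314), (-2, 1315), (2, 1324), (-2, 1325), (-2, 1326), (2, 1353), (-2, 1358), (2, 1361), (2, 1371), (-2, 1376), (2, 1377), (-2, 1378), (2, 1387), (-2, 1388), (-2, 1389), (2, 1390), (-2, 1414), (2, 1415), (-2, 1416), (2, 1417), (2, 1419), (2, 1420), (2, 1427), (-2, 1454), (-2, 1456), (-2, 1480), (2, 1481), (-2, 1488), (-2, 1489), (2, 1495), (2, 1498), (-2, 1499), (2, 1500), (2, 1660), (2, 1669), (2, 1670), (2, 1672), (2, 1682), (2, 1689), (-2, 1698), (2, 1704), (2, 1835), (2, 1836), (-2, 1845), (-2, 1846), (-2, 1847), (2, 1852), (-2, 1862), (2, 1867), (-2, 1871), (-2, 1877), (2, 1891), (2, 1892), (-2, 1893), (-2, 1924), (2, 1925),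 (2, 1926), (-2, 1927), (-2, 2031), (2, 2338), (2, 2361), (2, 2400), (-2, 2402), (-2, 2427), (-2, 2435), (-2, 2529), (2, 2537), (2, 2538), (2, 2631), (-2, 2667), (-2, 2668), (-2, 2789), (-2, 2896), (-2, 3572), (2, 4033), (10176, 4390), (-2016, 4391), (64, 4392), (9440, 4393), (-12480, 4394), (-9984, 4395), (-16336, 4396), (13568, 4397), (8800, 4398), (7234, 4399), (14944, 4400), (-5790, 4401), (-13054, 4402), (512, 4403), (2, 4404), (2400, 4405), (-11552, 4406), (2224, 4407)]
def rs6 : List (ℤ × ℕ) := [(-8672, 4408), (13344, 4409), (8000, 4410), (-8432, 4411), (-3680, 4412), (14304, 4413), (-8638, 4414), (-7344, 4415), (-12978, 4416), (958, 4417), (13394, 4418), (-13424, 4419), (2816, 4420), (2240, 4421), (3368, 4422), (2858, 4423), (-16290, 4424), (-7408, 4425), (1632, 4426), (-4450, 4427), (-14750, 4428), (12286, 4429), (12944, 4430), (8402, 4431), (-6112, 4432), (-4656, 4433), (15504, 4434), (-1760, 4435), (-14400, 4436), (-6928, 4437), (-14880, 4438),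 (-14784, 4439), (-1264, 4440), (-14256, 4441), (-9536, 4442), (-7790, 4443), (-5296, 4444), (-12896, 4445), (-2704, 4446), (-3154, 4447), (14352, 4448), (-13664, 4449), (-2670, 4450), (1504, 4451), (3888, 4452), (9814, 4453), (2560, 4454), (7266, 4455), (4656, 4456), (-14256, 4457), (8144, 4458), (-1248, 4459), (32, 4460), (-5904, 4461), (9504, 4462), (7136, 4463), (4048, 4464), (-4896, 4465), (2626, 4466), (-2928, 4467), (2352, 4468), (-8640, 4469), (-608, 4470), (16430, 4471), (5272, 4472), (16352, 4473), (-11824, 4474), (14480, 4475), (2624, 4476), (-8768, 4477), (-9024, 4478), (-13504, 4479), (-13248, 4480), (2496, 4481), (-11264, 4482), (-11202, 4483), (-13280, 4484), (-14550, 4485), (4608, 4486), (9024, 4487), (3072, 4488), (13904, 4489), (1144, 4490), (2240, 4491), (-4000, 4492), (-16000, 4493), (1056, 4494), (-11504, 4495), (5408, 4496), (9312, 4497), (10288, 4498), (-3008, 4499), (-2, 4500), (2928, 4501), (9984, 4503), (9858, 4505), (6974, 4506),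 (6290, 4507), (352, 4508), (2560, 4509), (1920, 4510), (13248, 4512), (-222, 4513), (11136, 4514), (-15984, 4515), (-864, 4516), (-2, 4517), (-606, 4518), (1728, 4520), (-2, 4521), (450, 4522), (2, 4523), (30, 4524), (-354, 4526), (-30, 4528), (-2, 4529), (-30, 4530), (-96, 4532), (-2, 4533), (162, 4534), (2, 4537), (-162, 4538), (2, 4539), (-2, 4540), (42, 4541), (2, 4542), (-42, 4543), (-240, 4545), (384, 4547), (-96, 4549), (240, 4551), (48, 4553), (2, 4554), (54, 4555), (72, 4557), (72, 4559), (2, 4560), (54, 4561), (2, 4562), (-162, 4563), (672, 4567), (192, 4569), (480, 4571), (-192, 4573), (-480, 4575), (480, 4577), (-720, 4579), (48, 4581), (-96, 4583), (144, 4587), (48, 4589), (2, 4590), (78, 4591), (-2, 4592), (18, 4593), (-2, 4594), (-102, 4595), (2, 4596), (-90, 4597), (2, 4598), (-90, 4599), (-2, 4600), (90, 4601), (2, 4602), (54, 4603), (-2, 4604), (42, 4605), (2, 4606), (6, 4607), (-2, 4608), (90, 4609), (72, 4611), (-72, 4613), (-72,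 4615), (-72, 4617), (96, 4619), (-48, 4621), (2, 4622), (30, 4623), (2, 4624), (30, 4625), (2, 4626), (-258, 4627), (-2, 4630), (2, 4632), (2, 4633), (2, 4637), (2, 4639), (-2, 4640), (2, 4641), (-2, 4642), (2, 4643), (2, 4644), (2, 4645), (2, 4646), (2, 4647), (2, 4648), (-2, 4649), (2, 4653), (-2, 4656)]
def rs7 : List (ℤ × ℕ) := [(2, 4657), (-162, 4658), (2, 4659), (-66, 4660), (2, 4661), (222, 4662), (2, 4663), (-162, 4664), (-2, 4665), (-30, 4666), (-2, 4667), (-126, 4668), (-2, 4669), (-126, 4670), (-2, 4671), (-30, 4672), (-2, 4673), (-2, 4674), (2, 4675), (2, 4676), (96, 4678), (-2, 4679), (162, 4680), (-2, 4681), (66, 4682), (-2, 4683), (-126, 4684), (1344, 4686), (-96, 4688), (-96, 4690), (-192, 4692), (96, 4694), (-480, 4696), (96, 4698), (-48, 4700), (48, 4702), (-96, 4704), (96, 4708), (-96, 4712), (96, 4714), (2, 4715), (2, 4716), (2, 4717), (2, 4721), (2, 4723), (2, 4724), (2, 4726), (-2, 4731), (-2, 4732), (-2, 4733), (-2, 4739), (42,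 4740), (2, 4741), (-42, 4742), (-240, 4744), (-126, 4746), (-126, 4748), (-126, 4750), (-96, 4752), (-2, 4753), (-2, 4754), (-2, 4755), (2, 4756), (2, 4757), (-2, 4758), (3, 4759), (2, 4760), (2, 4761), (3, 4762), (2, 4763), (2, 4764), (-2, 4765), (2, 4766), (30, 4767), (2, 4768), (30, 4769), (2, 4770), (30, 4771), (-2, 4773), (2, 4775), (2, 4778), (2, 4781), (3, 4785), (-2, 4787), (2, 4791), (6, 4792), (2, 4793), (54, 4794), (2, 4795), (30, 4796), (2, 4797), (30, 4798), (2, 4799), (54, 4800), (2, 4801), (6, 4802), (-2, 4803), (18, 4804), (-48, 4806), (-72, 4808), (-2, 4809), (42, 4810), (-2, 4811), (-54, 4812), (72, 4814), (-2, 4815), (-1, 4816), (-2, 4817), (-2, 4818), (-2, 4819), (-2, 4820), (-2, 4821), (1, 4822), (-2, 4823), (-2, 4824), (-2, 4825), (2, 4826), (-2, 4827), (-2, 4828), (-2, 4829), (-2, 4830), (-2, 4832), (2, 4833), (2, 4834), (2, 4835), (2, 4836), (2, 4837), (-2, 4838), (2, 4839), (2, 4840), (1, 4841), (2, 4845), (-1, 4846), (2, 4847),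 (2, 4849), (2, 4850), (2, 4855), (2, 4856), (3, 4857), (192, 4861), (2, 4862), (30, 4863), (-48, 4865), (2, 4866), (-210, 4867), (2, 4870), (-162, 4871), (-2, 4872), (-2, 4873), (-2, 4874), (-2, 4875), (-2, 4876), (-2, 4877), (-240, 4879), (-240, 4881), (2, 4882), (-18, 4883), (2, 4884), (-66, 4885), (2, 4886), (30, 4887), (2, 4888), (30, 4889), (2, 4890), (-18, 4891), (2, 4892), (126, 4893), (2, 4894), (2, 4895), (2, 4896), (-2, 4897), (-2, 4898), (-2, 4899), (3, 4902), (2, 4903), (-2, 4905), (-2, 4907), (2, 4911), (-2, 4913), (-2, 4914), (-2, 4915), (1, 4916), (-2, 4918), (-2, 4920), (-2, 4922), (2, 4923), (3, 4924), (-1, 4925), (-1, 4926), (3, 4927), (-240, 4930), (288, 4932), (-96, 4934), (264, 4936), (-72, 4938), (-240, 4940), (96, 4942), (384, 4944), (48, 4946), (624, 4948)]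
def rs8 : List (ℤ × ℕ) := [(-336, 4950), (-2, 4951), (-54, 4952), (2, 4953), (6, 4954), (2, 4955), (30, 4956), (-2, 4957), (-6, 4958), (-2, 4959), (-6, 4960), (2, 4961), (-66, 4962), (2, 4963), (-42, 4964), (2, 4965), (-42, 4966), (2, 4967), (-42, 4968), (2, 4969), (-42, 4970), (2, 4971), (-42, 4972), (2, 4973), (-42, 4974), (2, 4975), (-42, 4976), (2, 4977), (-42, 4978), (2, 4979), (-42, 4980), (2, 4981), (-42, 4982), (2, 4983), (-42, 4984), (2, 4985), (-42, 4986), (-96, 4988), (2, 4989), (30, 4990), (2, 4991), (102, 4992), (120, 4994), (-120, 4996), (2, 4997), (-138, 4998), (2, 4999), (6, 5000), (2, 5001), (54, 5002), (2, 5003), (54, 5004), (2, 5005), (6, 5006), (2, 5007), (6, 5008), (2, 5009), (-42, 5010), (2, 5011), (6, 5012), (2, 5013), (102, 5014), (2, 5015), (30, 5016), (2, 5017), (-66, 5018), (2, 5019), (-18, 5020), (2, 5021), (126, 5022), (2, 5023), (-42, 5024), (2, 5025), (-42, 5026), (2, 5027), (-42, 5028), (2, 5029), (-42, 5030), (2, 5031),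 (-42, 5032), (2, 5033), (-42, 5034), (2, 5035), (-42, 5036), (2, 5037), (-42, 5038), (2, 5039), (-42, 5040), (2, 5041), (-42, 5042), (2, 5043), (-42, 5044), (2, 5045), (-42, 5046), (-2, 5047), (114, 5048), (-48, 5050), (-2, 5051), (66, 5052), (96, 5054), (-2, 5055), (-78, 5056), (-48, 5058), (2, 5060), (1, 5061), (2, 5065), (2, 5068), (2, 5069), (2, 5070), (2, 5071), (2, 5072), (2, 5073), (2, 5074), (2, 5075), (-2, 5077), (-2, 5078), (2, 5081), (-2, 5082), (2, 5084), (2, 5085), (2, 5088), (2, 5089), (2, 5090), (2, 5091), (2, 5092), (2, 5093), (2, 5094), (2, 5095), (-2, 5096), (2, 5097), (-2, 5098), (-2, 5099), (66, 5100), (96, 5102), (-2, 5103), (-78, 5104), (-240, 5106), (-2, 5107), (66, 5108), (-96, 5110), (2, 5111), (30, 5112), (2, 5113), (30, 5114), (2, 5115), (30, 5116), (96, 5118), (-2, 5119), (-126, 5120), (-2, 5123), (162, 5124), (96, 5126), (-2, 5127), (-30, 5128), (2, 5129), (2, 5131), (2, 5133), (-96, 5136), (2, 5139), (78, 5140), (2, 5141),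 (-210, 5142), (2, 5143), (-18, 5144), (-288, 5154), (576, 5156), (-96, 5158), (96, 5160), (48, 5162), (-144, 5164), (-2, 5165), (-78, 5166), (48, 5168), (-2, 5169), (-78, 5170), (48, 5172), (-2, 5173), (-78, 5174), (-2, 5175), (114, 5176), (2, 5177), (78, 5178), (-2, 5179), (-30, 5180), (2, 5181), (-66, 5182), (-2, 5183), (66, 5184), (2, 5185), (-66, 5186), (2, 5187), (2, 5188), (2, 5189), (-2, 5193), (2, 5194), (2, 5196), (2, 5197), (2, 5198), (2, 5200), (2, 5201)]
def rs9 : List (ℤ × ℕ) := [(2, 5202), (2, 5204), (-2, 5205), (-2, 5206), (-2, 5207), (-2, 5208), (-2, 5210), (-2, 5212), (2, 5214), (2, 5215), (-2, 5217), (144, 5220), (-432, 5222), (432, 5224), (-432, 5226), (144, 5228), (2, 5229), (30, 5230), (2, 5231), (-42, 5232), (2, 5233), (-42, 5234), (2, 5235), (30, 5236), (2, 5237), (-90, 5238), (2, 5239), (54, 5240), (-96, 5242), (2, 5243), (30, 5244), (2, 5245), (-42, 5246), (-24, 5248), (72, 5250), (2, 5251), (54, 5252), (2, 5253), (-66, 5254),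 (2, 5255), (-18, 5256), (-24, 5258), (-2, 5259), (42, 5260), (48, 5262), (-2, 5263), (-30, 5264), (2, 5265), (54, 5266), (2, 5267), (6, 5268), (2, 5269), (30, 5270), (2, 5271), (78, 5272), (48, 5274), (-2, 5275), (18, 5276), (96, 5282), (48, 5286), (-48, 5288), (-2, 5294), (2, 5298), (2, 5299), (2, 5300), (2, 5303), (2, 5304), (-2, 5305), (-2, 5308), (-2, 5309), (-2, 5312), (-2, 5313), (-2, 5314), (-2, 5315), (-2, 5316), (-2, 5317), (-2, 5318), (2, 5319), (2, 5320), (-2, 5322), (-2, 5323), (-2, 5324), (2, 5325), (2, 5326), (-2, 5327), (-126, 5328), (-192, 5330), (-2, 5331), (258, 5332), (-96, 5334), (-2, 5335), (-126, 5336), (2, 5339), (126, 5340), (2, 5341), (126, 5342), (2, 5343), (-66, 5344), (-2, 5345), (66, 5346), (-96, 5348), (-2, 5349), (114, 5350), (48, 5352), (-2, 5353), (-30, 5354), (2, 5357), (-2, 5358), (2, 5359), (-2, 5360), (2, 5361), (-2, 5362), (192, 5364), (192, 5366), (-2, 5367), (-2, 5368), (-78, 5369), (-2, 5370), (18, 5371), (-2,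 5372), (18, 5373), (-288, 5375), (288, 5377), (-96, 5381), (768, 5383), (-384, 5385), (-2, 5386), (-78, 5387), (-2, 5388), (66, 5389), (-2, 5390), (66, 5391), (2, 5392), (-210, 5393), (2, 5394), (-18, 5395), (2, 5396), (126, 5397), (2, 5398), (126, 5399), (2, 5400), (30, 5401), (2, 5402), (30, 5403), (2, 5404), (126, 5405), (2, 5408), (-66, 5409), (-96, 5411), (2, 5412), (-18, 5413), (48, 5415), (-2, 5419), (-2, 5420), (-2, 5421), (-2, 5422), (-2, 5423), (2, 5424), (-2, 5425), (-2, 5426), (-2, 5427), (2, 5428), (-2, 5429), (-2, 5430), (-2, 5431), (-2, 5432), (-2, 5433), (-2, 5434), (-2, 5436), (-2, 5438), (-2, 5440), (-2, 5441), (-2, 5442), (-2, 5443), (2, 5444), (2, 5450), (-2, 5451), (2, 5454), (-1, 5455), (2, 5456), (2, 5458), (3, 5459), (2, 5460), (2, 5461), (2, 5462), (2, 5463), (-1, 5464), (2, 5465), (2, 5467), (2, 5468), (-1, 5471), (2, 5472), (2, 5474), (2, 5475), (2, 5478), (2, 5479), (-2, 5480), (-2, 5481), (2, 5482), (-1, 5483)]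
def rs10 : List (ℤ × ℕ) := [(2, 5484), (2, 5485), (-2, 5486), (1, 5487), (288, 5489), (-96, 5493), (-96, 5495), (96, 5497), (48, 5507), (-48, 5509), (2, 5510), (-1, 5511), (2, 5512), (-18, 5513), (2, 5514), (-162, 5515), (2, 5516), (30, 5517), (-96, 5519), (48, 5521), (48, 5523), (2, 5534), (2, 5535), (-2, 5536), (2, 5537), (2, 5541), (2, 5543), (2, 5545), (2, 5547), (3, 5549), (-2, 5552), (-78, 5553), (2, 5554), (-402, 5555), (2, 5556), (78, 5557), (2, 5558), (78, 5559), (-2, 5560), (-2, 5561), (-2, 5562), (-2, 5563), (2, 5565), (2, 5567), (-2, 5568), (-2, 5569), (2, 5571), (2, 5573), (-2, 5574), (2, 5575), (2, 5576), (2, 5579), (2, 5580), (2, 5582), (-2, 5583), (2, 5584), (-2, 5585), (2, 5586), (2, 5587), (2, 5588), (2, 5589), (2, 5590), (2, 5591), (2, 5592), (-114, 5593), (2, 5594), (-498, 5595), (312, 5597), (168, 5599), (192, 5601), (240, 5603), (-48, 5605), (-2, 5606), (-78, 5607), (2, 5608), (78, 5609), (2, 5610), (2, 5611), (2, 5612), (-2, 5613),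 (96, 5617), (2, 5618), (-162, 5619), (2, 5620), (318, 5621), (2, 5622), (30, 5623), (2, 5624), (-66, 5625), (2, 5626), (126, 5627), (-192, 5629), (96, 5631), (-96, 5633), (-2, 5640), (-2, 5641), (-2, 5642), (2, 5643), (216, 5646), (2, 5648), (-282, 5649), (2, 5650), (2, 5651), (2, 5652), (-2, 5653), (-2, 5654), (-2, 5655), (2, 5660), (-2, 5661), (-78, 5662), (2, 5663), (-402, 5664), (2, 5665), (-162, 5666), (2, 5667), (78, 5668), (2, 5669), (78, 5670), (-2, 5671), (2, 5672), (-2, 5673), (2, 5674), (-2, 5675), (2, 5676), (-2, 5677), (-78, 5678), (2, 5679), (-402, 5680), (-2, 5681), (42, 5682), (-2, 5683), (42, 5684), (-2, 5685), (42, 5686), (2, 5687), (-42, 5688), (-2, 5689), (42, 5690), (2, 5691), (-42, 5692), (-2, 5693), (-78, 5694), (-2, 5695), (-78, 5696), (-2, 5697), (42, 5698), (-2, 5699), (-132, 5700), (-2, 5701), (-78, 5702), (2, 5703), (-132, 5704), (-2, 5705), (66, 5706), (-2, 5707), (-2, 5708), (66, 5709), (-2, 5710), (66, 5711), (-2, 5712),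 (66, 5713), (-2, 5714), (66, 5715), (48, 5717), (-144, 5719), (192, 5721), (-2, 5722), (-78, 5723), (-2, 5724), (18, 5725), (-2, 5726), (162, 5727), (2, 5728), (-2, 5729), (2, 5730), (2, 5731), (2, 5732), (36, 5733), (-2, 5734), (-336, 5735), (-2, 5736), (42, 5737), (-2, 5738), (42, 5739), (2, 5740), (-42, 5741), (-2, 5742), (42, 5743), (2, 5744), (-2, 5745), (2, 5746), (-42, 5747), (2, 5748), (12, 5749), (-2, 5752), (-156, 5753), (-2, 5755), (-2, 5756), (162, 5757), (-2, 5758)]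
def rs11 : List (ℤ × ℕ) := [(-2, 5759), (-2, 5760), (2, 5762), (-2, 5763), (-2, 5765), (-2, 5767), (-1, 5768), (1, 5770), (-2, 5771), (-2, 5773), (2, 5782), (-2, 5783), (-2, 5784), (-2, 5785), (-2, 5786), (2, 5788), (-1, 5790), (2, 5791), (3, 5792), (-2, 5793), (-2, 5794), (2, 5796), (-192, 5797), (2, 5798), (-36, 5799), (2, 5800), (2, 5801), (156, 5802), (2, 5803), (60, 5804), (2, 5805), (156, 5806), (2, 5807), (-36, 5808), (2, 5809), (-162, 5810), (2, 5811), (156, 5812), (2, 5813), (2, 5814), (78, 5815), (2, 5816), (78, 5817), (2, 5818), (-84, 5819), (2, 5820), (-84, 5821), (2, 5822), (2, 5823), (-2, 5824), (-2, 5825), (-2, 5826), (-2, 5828), (192, 5829), (2, 5831), (-192, 5832), (2, 5836), (30, 5837), (-2, 5838), (258, 5839), (48, 5841), (2, 5842), (78, 5843), (-2, 5844), (66, 5845), (-2, 5846), (-30, 5847), (2, 5848), (198, 5849), (120, 5851), (120, 5853), (-120, 5855), (2, 5856), (-42, 5857), (-120, 5859), (-2, 5860), (66, 5861), (-2, 5862), (-126,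 5863), (-2, 5864), (18, 5865), (-2, 5866), (114, 5867), (-2, 5868), (-30, 5869), (-2, 5870), (-30, 5871), (96, 5873), (-2, 5874), (66, 5875), (-2, 5878), (66, 5879), (-2, 5882), (-30, 5883), (2, 5884), (2, 5885), (2, 5886), (2, 5887), (2, 5888), (2, 5889), (-2, 5890), (-2, 5891), (-2, 5892), (-2, 5893), (-2, 5894), (-2, 5895), (-2, 5896), (-2, 5897), (-2, 5898), (-2, 5900), (-2, 5901), (-2, 5902), (2, 5903), (-2, 5904), (2, 5905), (-2, 5906), (2, 5907), (240, 5910), (-240, 5912), (-48, 5915), (48, 5917), (-2, 5919), (48, 5920), (144, 5922), (-2, 5923), (-2, 5925), (2, 5927), (2, 5928), (2, 5929), (2, 5931), (2, 5933), (-2, 5935), (2, 5936), (-2, 5937), (2, 5938), (-2, 5939), (2, 5940), (-2, 5941), (-78, 5942), (2, 5943), (-402, 5944), (-2, 5946), (-192, 5947), (-2, 5949), (-192, 5951), (2, 5953), (-96, 5954), (-96, 5957), (-2, 5958), (-2, 5960), (-2, 5962), (-2, 5964), (-2, 5966), (-2, 5968), (-2, 5971), (-384, 5972), (2, 5974), (384, 5975), (-2, 5977),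 (-384, 5978), (-2, 5980), (-78, 5981), (2, 5982), (78, 5983), (2, 5984), (-162, 5985), (2, 5986), (2, 5987), (2, 5988), (2, 5989), (2, 5990), (2, 5991), (-2, 5993), (96, 5994), (96, 5996), (2, 5998), (192, 5999), (192, 6001), (2, 6003), (-192, 6004), (-2, 6006), (-2, 6007), (-2, 6008), (-2, 6009), (-2, 6010), (-2, 6011), (2, 6012), (78, 6013), (-2, 6017), (-2, 6018), (-2, 6019), (-1, 6020), (-2, 6021), (-2, 6022), (-2, 6023), (1, 6024), (-2, 6025), (1, 6026), (-2, 6031), (-2, 6033)]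
def rs12 : List (ℤ × ℕ) := [(-2, 6035), (-144, 6037), (2, 6038), (78, 6039), (-2, 6042), (66, 6043), (-240, 6045), (-2, 6046), (-78, 6047), (2, 6048), (78, 6049), (2, 6050), (78, 6051), (-2, 6052), (162, 6053), (2, 6054), (-162, 6055), (-2, 6059), (192, 6060), (192, 6062), (-96, 6064), (192, 6066), (-2, 6067), (162, 6068), (-384, 6070), (2, 6071), (126, 6072), (-2, 6073), (18, 6074), (-48, 6076), (2, 6077), (30, 6078), (96, 6080), (2, 6081), (-66, 6082), (2, 6083), (-162, 6084), (-2, 6085), (66, 6086), (-2, 6087), (66, 6088), (2, 6089), (30, 6090), (-2, 6091), (-126, 6092), (-2, 6093), (66, 6094), (2, 6095), (126, 6096), (2, 6102), (-2, 6104), (-2, 6106), (2, 6108), (2, 6109), (-2, 6111), (2, 6114), (-96, 6115), (-96, 6117), (-2, 6119), (-192, 6120), (-192, 6122), (2, 6126), (-192, 6127), (-2, 6128), (2, 6130), (2, 6132), (2, 6133), (-2, 6134), (-2, 6135), (-192, 6140), (-2, 6141), (-2, 6149), (2, 6151), (3, 6152), (-2, 6153), (1, 6154), (-1, 6155),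 (-2, 6156), (-2, 6157), (-192, 6159), (2, 6161), (-2, 6163), (-2, 6173), (2, 6174), (-2, 6175), (2, 6177), (2, 6179), (-2, 6181), (2, 6187), (2, 6188), (2, 6189), (2, 6190), (2, 6191), (2, 6192), (-2, 6193), (-2, 6194), (-2, 6195), (1, 6197), (-2, 6198), (1, 6199), (-2, 6201), (-2, 6203), (-2, 6204), (2, 6205), (2, 6206), (-1, 6207), (-2, 6208), (2, 6209), (-2, 6210), (2, 6211), (-2, 6214), (2, 6215), (-2, 6217), (-2, 6219), (2, 6221), (24, 6222), (-2, 6223), (-2, 6225), (-24, 6226), (1, 6227), (2, 6229), (48, 6230), (2, 6232), (144, 6233), (-288, 6235), (48, 6237), (48, 6240), (2, 6242), (-144, 6243), (192, 6245), (48, 6247), (96, 6249), (-192, 6251), (-2, 6252), (-2, 6253), (-2, 6254), (-2, 6255), (2, 6256), (-2, 6257), (-2, 6258), (-2, 6259), (2, 6261), (24, 6262), (-2, 6264), (-1, 6265), (-2, 6266), (-2, 6267), (-2, 6268), (-2, 6270), (-2, 6271), (-2, 6272), (-2, 6274), (-2, 6275), (-1, 6277), (-2, 6283), (-2, 6284), (-2, 6285), (-2, 6287), (48,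 6288), (-2, 6290), (96, 6291), (-2, 6293), (-192, 6294), (48, 6296), (-96, 6298), (48, 6300), (-48, 6302), (96, 6304), (-192, 6306), (144, 6308), (96, 6310), (-48, 6312), (2, 6323), (-96, 6324), (-2, 6326), (48, 6327), (48, 6329), (2, 6330), (-2, 6331), (2, 6332), (-2, 6333), (2, 6334), (2, 6335), (-2, 6336), (1, 6337), (2, 6338), (2, 6339), (2, 6340), (-1, 6341), (2, 6342), (2, 6343), (2, 6344), (2, 6345), (2, 6346), (-2, 6347), (2, 6348), (3, 6349), (2, 6352), (2, 6353), (2, 6354)]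
def rs13 : List (ℤ × ℕ) := [(3, 6355), (2, 6363), (-2, 6364), (-2, 6365), (-2, 6366), (1, 6367), (-2, 6368), (2, 6369), (-2, 6370), (2, 6371), (-2, 6372), (2, 6373), (2, 6374), (-1, 6375), (2, 6376), (-2, 6377), (2, 6378), (-2, 6379), (2, 6380), (-1, 6381), (-2, 6382), (3, 6383), (-144, 6386), (2, 6388), (-144, 6389), (-2, 6391), (96, 6392), (-2, 6394), (-96, 6395), (96, 6397), (-48, 6399), (2, 6401), (-48, 6402), (-2, 6404), (-2, 6406), (3, 6408), (-2, 6409), (1, 6410), (2, 6412), (96, 6413), (-2, 6414), (2, 6416), (-192, 6417), (192, 6420), (-2, 6422), (192, 6423), (-2, 6425), (-1, 6426), (-2, 6427), (576, 6429), (192, 6431), (2, 6433), (-192, 6434), (2, 6437), (126, 6438), (-2, 6439), (66, 6440), (2, 6441), (126, 6442), (-2, 6443), (18, 6444), (-2, 6445), (18, 6446), (2, 6447), (2, 6448), (2, 6449), (-2, 6450), (-2, 6451), (-2, 6452), (-2, 6453), (-2, 6454), (-2, 6455), (-2, 6456), (-2, 6457), (-2, 6458), (-2, 6459), (162, 6460), (480, 6462), (2,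 6463), (-66, 6464), (2, 6466), (-96, 6467), (-2, 6468), (2, 6469), (66, 6471), (-96, 6473), (-174, 6475), (96, 6477), (-192, 6479), (-2, 6489), (-2, 6490), (-2, 6491), (192, 6493), (-2, 6495), (-1536, 6496), (-1, 6497), (126, 6499), (-288, 6502), (2, 6503), (-2, 6504), (-1, 6506), (2, 6507), (-2, 6508), (2, 6509), (-48, 6510), (174, 6512), (-2, 6513), (-2, 6515), (192, 6516), (2, 6517), (-2, 6518), (192, 6519), (192, 6521), (2, 6522), (2, 6524), (-2, 6526), (-2, 6528), (-480, 6532), (2, 6533), (318, 6534), (2, 6535), (408, 6536), (-408, 6538), (-2, 6539), (120, 6540), (138, 6542), (2, 6543), (-354, 6544), (96, 6546), (2, 6547), (270, 6548), (-2, 6549), (114, 6550), (-96, 6552), (96, 6554), (-96, 6556), (-96, 6558), (-2, 6559), (-318, 6560), (-2, 6561), (-126, 6562), (2, 6563), (-66, 6564), (2, 6565), (126, 6566), (96, 6568), (-2, 6569), (162, 6570), (-144, 6572), (2, 6573), (78, 6574), (2, 6575), (30, 6576), (-96, 6578), (-2, 6579), (114, 6580), (-144,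 6582), (-96, 6584), (2, 6585), (-144, 6587), (-2, 6588), (114, 6589), (-2, 6590), (66, 6591), (2, 6592), (2, 6593), (-66, 6594), (-2, 6595), (66, 6596), (-2, 6597), (2, 6599), (-2, 6601), (-2, 6602), (-2, 6605), (2, 6607), (-2, 6610), (96, 6611), (96, 6613), (2, 6619), (2, 6620), (-2, 6622), (-2, 6624), (2, 6625), (2, 6626), (-2, 6627), (-2, 6628), (-78, 6629), (-2, 6630), (162, 6631), (-2, 6632), (2, 6633), (2, 6634), (-2, 6635), (288, 6637), (-2, 6638), (66, 6639), (-2, 6641), (66, 6642), (2, 6643), (2, 6648)]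
def rs14 : List (ℤ × ℕ) := [(-2, 6649), (2, 6651), (-2, 6652), (2, 6653), (-2, 6656), (2, 6657), (-2, 6660), (2, 6661), (-2, 6665), (2, 6666), (-42, 6667), (-120, 6669), (-2, 6670), (2, 6671), (-48, 6676), (336, 6678), (144, 6680), (-144, 6682), (96, 6686), (-96, 6688), (2, 6693), (-66, 6694), (-2, 6696), (2, 6699), (-2, 6701), (-2, 6706), (2, 6708), (-2, 6709), (-2, 6710), (2, 6711), (-2, 6713), (2, 6716), (384, 6717), (-2, 6718), (2, 6720), (2, 6721), (2, 6722), (-2, 6723), (-2, 6724), (-2, 6725), (-2, 6726), (2, 6727), (2, 6728), (-2, 6732), (-2, 6734), (-24, 6735), (1, 6736), (-2, 6739), (1, 6746), (2, 6747), (2, 6748), (-2, 6749), (-2, 6750), (2, 6751), (2, 6752), (2, 6753), (-2, 6754), (-2, 6755), (-2, 6756), (2, 6758), (-2, 6760), (-1, 6761), (-2, 6762), (2, 6763), (2, 6764), (-2, 6765), (-2, 6767), (-288, 6768), (-96, 6770), (2, 6772), (1, 6775), (-2, 6777), (2, 6778), (2, 6779), (-1, 6787), (-2, 6788), (-192, 6790), (2, 6792), (384, 6793), (2,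 6825), (-258, 6826), (2, 6827), (48, 6829), (-48, 6831), (2, 6835), (-2, 6836), (-2, 6837), (-2, 6838), (2, 6839), (78, 6840), (-2, 6841), (-78, 6842), (-2, 6843), (2, 6844), (2, 6845), (-1, 6848), (3, 6849), (1, 6850), (-2, 6851), (-2, 6852), (2, 6854), (-2, 6855), (42, 6856), (2, 6857), (2, 6861), (-66, 6862), (-2, 6863), (2, 6869), (-2, 6870), (2, 6873), (-2, 6874), (-2, 6875), (2, 6876), (2, 6877), (-2, 6878), (2, 6879), (-2, 6880), (-1, 6881), (-1, 6886), (576, 6892), (-2, 6894), (-30, 6895), (2, 6896), (-192, 6898), (2, 6899), (126, 6900), (-2, 6902), (2, 6903), (-66, 6904), (-2, 6907), (2, 6913), (2, 6914), (-2, 6915), (-2, 6919), (2, 6920), (-2, 6921), (2, 6923), (-2, 6925), (-48, 6931), (-2, 6933), (66, 6934), (2, 6935), (96, 6937), (2, 6938), (-162, 6939), (-2, 6941), (-96, 6943), (-96, 6945), (2, 6950), (-2, 6951), (-2, 6952), (-2, 6953), (2, 6954), (2, 6955), (-2, 6956), (2, 6957), (-2, 6958), (2, 6960), (-2, 6962), (2, 6963), (2, 6974),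 (-2, 6975), (2, 6976), (-2, 6977), (2, 6978), (-2, 6979), (1, 6980), (-2, 6981), (2, 6982), (2, 6983), (-2, 6984), (-2, 6986), (2, 6987), (2, 6988), (-2, 6989), (-2, 6992), (-2, 6993), (2, 6994), (2, 6995), (2, 6996), (2, 6997), (-2, 7002), (2, 7003), (2, 7008), (-2, 7010), (2, 7011), (-2, 7012), (-2, 7013), (2, 7014), (2, 7015), (78, 7016), (-2, 7018), (-2, 7019), (-2, 7020), (2, 7021), (2, 7022), (2, 7023), (2, 7024), (2, 7027), (-2, 7029)]
def rs15 : List (ℤ × ℕ) := [(-192, 7033), (192, 7035), (96, 7038), (-96, 7040), (-2, 7041), (2, 7042), (-2, 7045), (2, 7047), (-2, 7050), (2, 7052), (1, 7054), (78, 7055), (1, 7057), (210, 7058), (102, 7061), (-48, 7063), (48, 7065), (-90, 7067), (2, 7069), (-2, 7071), (2, 7073), (48, 7074), (3, 7076), (126, 7077), (-2, 7079), (-30, 7080), (2, 7081), (168, 7086), (72, 7088), (-72, 7090), (24, 7092), (3, 7093), (1, 7094), (2, 7095), (2, 7096), (-2, 7098), (3, 7100), (1, 7101), (-90, 7104), (-294, 7106), (54, 7108),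 (-150, 7110), (-2, 7112), (-2688, 7113), (-2, 7115), (1920, 7116), (576, 7119), (2, 7120), (-240, 7122), (-144, 7124), (48, 7126), (-48, 7128), (66, 7130), (30, 7132), (18, 7134), (144, 7136), (144, 7138), (-48, 7140), (-96, 7142), (1, 7144), (-42, 7145), (2, 7147), (192, 7148), (192, 7150), (-2, 7152), (96, 7153), (-96, 7155), (192, 7157), (2, 7159), (-2, 7161), (1, 7163), (30, 7164), (-2, 7166), (-240, 7167), (-72, 7170), (2, 7172), (-48, 7173), (2, 7180), (3, 7182), (-2, 7183), (2, 7184), (-432, 7187), (48, 7189), (-48, 7191), (-144, 7193), (-222, 7196), (-318, 7198), (3, 7200), (114, 7201), (-240, 7203), (-384, 7205), (192, 7207), (168, 7210), (-312, 7212), (-2, 7214), (72, 7215), (-24, 7218), (1, 7219), (-2, 7220), (-2, 7221), (3, 7222), (2, 7223), (-2, 7224), (-2, 7225), (2, 7226), (24, 7228), (-138, 7230), (96, 7232), (96, 7236), (48, 7238), (-2, 7240), (-2, 7243), (66, 7247), (-78, 7249), (186, 7252), (-150, 7254), (1, 7257), (2, 7258), (2, 7264),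 (-2, 7266), (2, 7268), (-1, 7269), (-1, 7270), (-2, 7271), (2, 7272), (2, 7273), (-2, 7275), (-2, 7277), (2, 7278), (2, 7279), (-2, 7280), (2, 7285), (-192, 7288), (-2, 7299)]
def rs : List (ℤ × ℕ) := rs0 ++ (rs1 ++ (rs2 ++ (rs3 ++ (rs4 ++ (rs5 ++ (rs6 ++ (rs7 ++ (rs8 ++ (rs9 ++ (rs10 ++ (rs11 ++ (rs12 ++ (rs13 ++ (rs14 ++ (rs15)))))))))))))))
def lV : List (ℤ × ℕ) := LV.map VR.ct
noncomputable def lA : List (ℤ × ℕ) := sclT ((32768 : ℕ) : ℤ) lV ++ (Vale.Agent.P355.H138.TB.ABC.lT ++ (Vale.Agent.P355.H947.UC.CCA.lT))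
theorem hA (hV : ∀ B : Fin 5 → M6, IsMUBs B → 0 ≤ valT (cv B 8 5) ct lV) (B : Fin 5 → M6) (hB : IsMUBs B) :
    0 ≤ valT (cv B 8 5) ct lA := add_T (scl_T 32768 (hV B hB)) (add_T (Vale.Agent.P355.H138.TB.ABC.tyk hB) (Vale.Agent.P355.H947.UC.CCA.tyk hB))
theorem evL_app0 {g : ℕ → ℝ} {ct : GT} {a b : List (ℕ × ℕ)} (h1 : evL g ct a = 0) (h2 : evL g ct b = 0) : evL g ct (a ++ b) = 0 := by rw [evL_append, h1, h2, add_zero]
noncomputable def out : List (ℕ × ℕ) := Gb0_o ++ (Gb1_o ++ (Gb2_o ++ (Gb3_o ++ (Gb4_o ++ (Gb5_o ++ (Gb6_o ++ (Gb7_o ++ (Gb8_o ++ (Gb9_o ++ (Gb10_o ++ (Gb11_o ++ (Gb12_o ++ (Gb13_o ++ (Gb14_o ++ (Gb15_o ++ (Gb16_o ++ (Gb17_o ++ (Gb18_o ++ (Gb19_o ++ (Gb20_o ++ (Gb21_o ++ (Gb22_o ++ (Gb23_o ++ (Gb24_o ++ (Gb25_o ++ (Gb26_o ++ (Gb27_o ++ (Gb28_o ++ (Gb29_o ++ (Gb30_o ++ (Gb31_o ++ (Gb32_o ++ (Gb33_o ++ (Gb34_o ++ (Gb35_o ++ (Gb36_o ++ (Gb37_o)))))))))))))))))))))))))))))))))))))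
theorem ho {m : ℕ} {B : Fin m → M6} (hB : IsMUBs B) : evL (cv B 8 5) ct out = 0 := (evL_app0 (Gb0_ev hB) (evL_app0 (Gb1_ev hB) (evL_app0 (Gb2_ev hB) (evL_app0 (Gb3_ev hB) (evL_app0 (Gb4_ev hB) (evL_app0 (Gb5_ev hB) (evL_app0 (Gb6_ev hB) (evL_app0 (Gb7_ev hB) (evL_app0 (Gb8_ev hB) (evL_app0 (Gb9_ev hB) (evL_app0 (Gb10_ev hB) (evL_app0 (Gb11_ev hB) (evL_app0 (Gb12_ev hB) (evL_app0 (Gb13_ev hB) (evL_app0 (Gb14_ev hB) (evL_app0 (Gb15_ev hB) (evL_app0 (Gb16_ev hB) (evL_app0 (Gb17_ev hB) (evL_app0 (Gb18_ev hB) (evL_app0 (Gb19_ev hB) (evL_app0 (Gb20_ev hB) (evL_app0 (Gb21_ev hB) (evL_app0 (Gb22_ev hB) (evL_app0 (Gb23_ev hB) (evL_app0 (Gb24_ev hB) (evL_app0 (Gb25_ev hB) (evL_app0 (Gb26_ev hB) (evL_app0 (Gb27_ev hB) (evL_app0 (Gb28_ev hB) (evL_app0 (Gb29_ev hB) (evL_app0 (Gb30_ev hB) (evL_app0 (Gb31_ev hB) (evL_app0 (Gb32_ev hB) (evL_app0 (Gb33_ev hB) (evL_app0 (Gb34_ev hB) (evL_app0 (Gb35_ev hB) (evL_app0 (Gb36_ev hB) (Gb37_ev hB))))))))))))))))))))))))))))))))))))))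
theorem fT : tck 8 5 (tabG ct) 0 wTri gTri 0xeca8642000a8642100001 = true := by decide +kernel
theorem f0 : tck 8 5 (tabG ct) 0 (fun _ => 0) (fun _ _ => 96) 0xeca8642000a8642000000 = true := by decide +kernel
theorem fres : 5 * massT rs < 2 * 9086925293 := by decide +kernel
theorem fck : ckFinG ct ((lA ++ [(((3386825326739 : ℕ) : ℤ), 0xeca8642000a8642100001)]) ++ (rs ++ [(((9086925293 : ℕ) : ℤ), 0xeca8642000a8642000000)])) out = true := by decide +kernel
theorem no_five (hV : ∀ B : Fin 5 → M6, IsMUBs B → 0 ≤ valT (cv B 8 5) ct lV) (B : Fin 5 → M6) : ¬ IsMUBs B :=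
  no_five_res (by norm_num) (by norm_num) (by norm_num) (hA hV) fT f0 (fun _ hB => ho hB) fres fck B

end Vale.Agent.P355.H693D
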