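import Vale.Agent.P355.H693W.Fin7
import Vale.Agent.P355.H693D.End
import Vale.Agent.P355.H790U.Br
import Vale.Agent.P355.H790U.Pk4
import Vale.Agent.P355.H909U.Sos
import Vale.Agent.P355.H998U.Rw
import Vale.Agent.P355.H998U.Tot

/-! No five mutually unbiased bases of `ℂ⁶`: the coloured level and the key level together. -/

namespace Vale.Agent.P355.H693D

open Finset Matrix Vale.Agent.P355 Vale.Agent.P355.H129
open Vale.Agent.P355.H138 (Tr RwP vl)
open Vale.Agent.P355.H387 (evL CT)
open Vale.Agent.P355.H693.Inj (riv)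
open Vale.Agent.P355.H998.R (cat)
open Vale.Agent.P355.H693W

/-- the entry of the empty class. -/
def eO : ℕ := nat_lit 0x1842d3c8000000

theorem hl4 : LV.map H693.VR.term = H790U.l4 := by decide +kernel

theorem hone : isOne H950U.ct eO = true := by decide +kernel

theorem hand : Nat.land eO 1208925819614629174706175 = eO := by decide +kernel

theorem hmu : 5 * H998U.EE < 2 * Nat.shiftRight eO 19 := by decide +kernel

theorem hcT : cat H998U.LT = H790U.oT := by decide +kernel

theorem hcS : cat H998U.LS = H909U.oA := by decide +kernel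

theorem hcR : cat H998U.LR = cat H998U.LRw := by decide +kernel

theorem hcO : cat H998U.LO = oneL eO := by decide +kernel

theorem vpos {B : Fin 5 → M6} (hB : IsMUBs B) :
    0 ≤ H693.valT (H147.cv B 8 5) ct (LV.map H693.VR.ct) :=
  VIG_packed (K := 4) hB (by norm_num) hLV hl4 H790U.pk4 (lT := H790U.oT) (lS := H909U.oA)
    (lR := cat H998U.LRw) (e := eO) (E := H998U.EE) (fun x hx hN => H790U.br4 x hx hN)
    (fun x hx _ => H909U.sos x hx.1) (fun _ hx hN => H998U.rw0 hx.1 hN) H790U.hMT H790U.hMTn
    H790U.hMB hone hand (fun F hF => by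
      have h := H998U.totG hF H950U.ct
      rw [hcT, hcS, hcR, hcO] at h
      exact h) hmu

/-- **No five mutually unbiased bases of `ℂ⁶`.** -/
theorem no_five' (B : Fin 5 → M6) : ¬ IsMUBs B := no_five (fun _ hB => vpos hB) B

end Vale.Agent.P355.H693D
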